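import Vale.Agent.P050.H687.Spec

/-!
[A] the case in which both parts are thin over `K`.
-/

set_option linter.unusedSectionVars false

namespace Vale.Agent.P050.H869.Clo

open Finset Vale.Agent.P050.Lev Vale.Agent.P050.Tmpl Vale.Agent.P050.H177 Vale.Agent.P050.H687
  Vale.Agent.P050.H149

section geo

variable {VG V : Type} [Fintype VG] [DecidableEq VG] [Fintype V] [DecidableEq V]
  {G : SimpleGraph VG} {t : VG → Bool} {H : SimpleGraph V} {s : V → Bool} {K : Finset V}
  {τ : V → Bool}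

/-- the substitution is 2-coloured -/
theorem sub_side (hH : ∀ u v, H.Adj u v → s u ≠ s v) (a b : RV t τ K)
    (h : (relSub G t H τ K).Adj a b) : subSide s t τ K a ≠ subSide s t τ K b := by
  rcases a with u | p <;> rcases b with v | q
  · exact hH _ _ h
  · exact hH _ _ h
  · exact hH _ _ h
  · exact hH _ _ h.2

/-- the substitution has no isolated vertex -/
theorem sub_iso (hne : Nonempty VG) (hG : ∀ p q, G.Adj p q → t p ≠ t q)
    (hGi : ∀ p, ∃ q, G.Adj p q) (hHi : ∀ u, ∃ v, H.Adj u v) (a : RV t τ K) :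
    ∃ b, (relSub G t H τ K).Adj a b := by
  have hb : ∀ b : Bool, ∃ p, t p = b := by
    intro b
    obtain ⟨p⟩ := hne
    obtain ⟨q, hq⟩ := hGi p
    have h1 := hG p q hq
    by_cases h : t p = b
    · exact ⟨p, h⟩
    · refine ⟨q, ?_⟩
      revert h1 h
      cases t p <;> cases t q <;> cases b <;> simp
  rcases a with u | p
  · obtain ⟨v, hv⟩ := hHi u
    by_cases hK : v ∈ K
    · exact ⟨Sum.inl ⟨v, hK⟩, hv⟩
    · obtain ⟨q, hq⟩ := hb (τ v)
      exact ⟨Sum.inr ⟨(q, v), ⟨hK, hq⟩⟩, hv⟩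
  · obtain ⟨v, hv⟩ := hHi p.1.2
    by_cases hK : v ∈ K
    · exact ⟨Sum.inl ⟨v, hK⟩, hv⟩
    · by_cases hp : t p.1.1 = τ v
      · exact ⟨Sum.inr ⟨(p.1.1, v), ⟨hK, hp⟩⟩, Or.inl rfl, hv⟩
      · obtain ⟨q, hq⟩ := hGi p.1.1
        have h1 := hG _ _ hq
        have h2 : t q = τ v := by
          revert h1 hp
          cases t p.1.1 <;> cases t q <;> cases τ v <;> simp
        exact ⟨Sum.inr ⟨(q, v), ⟨hK, h2⟩⟩, Or.inr hq, hv⟩

/-- each vertex of the substitution lies on a directed edge -/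
theorem sub_edge (hne : Nonempty VG) (hG : ∀ p q, G.Adj p q → t p ≠ t q)
    (hH : ∀ u v, H.Adj u v → s u ≠ s v)
    (hGi : ∀ p, ∃ q, G.Adj p q) (hHi : ∀ u, ∃ v, H.Adj u v) (a : RV t τ K) :
    ∃ e ∈ sideEdges (relSub G t H τ K) (subSide s t τ K), e.1 = a ∨ e.2 = a := by
  obtain ⟨b, hab⟩ := sub_iso (K := K) (τ := τ) hne hG hGi hHi a
  have hs := sub_side (G := G) (K := K) (τ := τ) (t := t) hH a b hab
  by_cases h : subSide s t τ K a = false
  · refine ⟨(a, b), ?_, Or.inl rfl⟩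
    simp only [sideEdges, mem_filter, mem_univ, true_and]
    refine ⟨hab, h, ?_⟩
    rw [h] at hs
    cases h' : subSide s t τ K b
    · exact absurd h'.symm hs
    · rfl
  · refine ⟨(b, a), ?_, Or.inr rfl⟩
    simp only [sideEdges, mem_filter, mem_univ, true_and]
    have h1 : subSide s t τ K a = true := by simpa using h
    refine ⟨hab.symm, ?_, h1⟩
    rw [h1] at hs
    cases h' : subSide s t τ K b
    · rfl
    · exact absurd h'.symm hs

end geo

section weights

variable {V U : Type} [Fintype V] [DecidableEq V] {H : SimpleGraph V} {s : V → Bool}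
  {W : U → U → ℝ}

theorem ed_nonneg (hW : ∀ x y, 0 ≤ W x y) (u v : V) (x y : U) : 0 ≤ ed H s W u v x y := by
  unfold ed
  split_ifs
  · exact hW _ _
  · exact zero_le_one

theorem pm_nonneg {m : Bool → U → ℝ} (hm : ∀ b x, 0 ≤ m b x) (x : V → U) : 0 ≤ pm s m x :=
  prod_nonneg fun _ _ => hm _ _

theorem ite_ed_nonneg (hW : ∀ x y, 0 ≤ W x y) (u v : V) (x y : U) (P : Prop) [Decidable P] :
    0 ≤ if P then ed H s W u v x y else 1 := by
  split_ifs
  · exact ed_nonneg hW _ _ _ _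
  · exact zero_le_one

theorem aw_nonneg (hW : ∀ x y, 0 ≤ W x y) (K : Finset V) (r : V → U) : 0 ≤ aw H s W K r :=
  prod_nonneg fun _ _ => prod_nonneg fun _ _ => ite_ed_nonneg hW _ _ _ _ _

theorem bw_nonneg (hW : ∀ x y, 0 ≤ W x y) (K B : Finset V) (r x : V → U) :
    0 ≤ bw H s W K B r x :=
  prod_nonneg fun _ _ => prod_nonneg fun _ _ => mul_nonneg (mul_nonneg
    (ite_ed_nonneg hW _ _ _ _ _) (ite_ed_nonneg hW _ _ _ _ _)) (ite_ed_nonneg hW _ _ _ _ _)

theorem dw_nonneg (hW : ∀ x y, 0 ≤ W x y) (X Y : Finset V) (x y : V → U) :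
    0 ≤ dw H s W X Y x y :=
  prod_nonneg fun _ _ => prod_nonneg fun _ _ => mul_nonneg
    (ite_ed_nonneg hW _ _ _ _ _) (ite_ed_nonneg hW _ _ _ _ _)

theorem bw_empty (K : Finset V) (r x : V → U) : bw H s W ∅ K r x = aw H s W K x := by
  simp [bw, aw]

theorem pm_ne {m : Bool → U → ℝ} {r : V → U} (h : pm s m r ≠ 0) (v : V) : m (s v) (r v) ≠ 0 :=
  fun h0 => h (prod_eq_zero (mem_univ v) h0)

end weights

/-- the mean of a kernel with row means one -/
theorem mean_one {U : Type} [Fintype U] {m : Bool → U → ℝ} {W : U → U → ℝ} (hB : Bir m W) :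
    ∑ x, ∑ y, m false x * m true y * W x y = 1 := by
  rw [← hB.m1 false]
  refine sum_congr rfl fun x _ => ?_
  by_cases h : m false x = 0
  · simp [h]
  · have := hB.row x h
    calc ∑ y, m false x * m true y * W x y = m false x * ∑ y, m true y * W x y := by
          rw [mul_sum]
          exact sum_congr rfl fun y _ => by ring
      _ = m false x := by rw [this, mul_one]

/-- a GSid graph has density at least one for each biregular kernel -/
theorem one_le_of_gsid {V U : Type} [Fintype V] [DecidableEq V] [Fintype U]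
    {m : Bool → U → ℝ} {W : U → U → ℝ} {H : SimpleGraph V} {s : V → Bool}
    (hH : GSid H s) (hB : Bir m W) :
    1 ≤ ∑ z : V → U, (∏ v, m (s v) (z v)) * ∏ e ∈ sideEdges H s, W (z e.1) (z e.2) := by
  have h := hH.2.2 U m W hB.m0 hB.m1 hB.W0
  rwa [mean_one hB, one_pow] at h

/-- [A] -/
theorem caseA (hT : ThinStmt) (hF : FactStmt) (hS : SubStmt) :
    ∀ (VG V : Type) [Fintype VG] [DecidableEq VG] [Fintype V] [DecidableEq V]
      (G : SimpleGraph VG) (t : VG → Bool) (H : SimpleGraph V) (s : V → Bool) (K : Finset V)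
      (τ : V → Bool), Nonempty VG → GSid G t → GSid H s → (∀ p, ∃ q, G.Adj p q) →
      (∀ u, ∃ v, H.Adj u v) →
      Thin H ∅ K → (∀ b, Thin H K (pt τ K b)) →
      GSid (relSub G t H τ K) (subSide s t τ K) := by
  intro VG V _ _ _ _ G t H s K τ hne hG hH hGi hHi hK hA
  refine ⟨sub_side hH.1, ksid_of_bireg ?_ (sub_edge hne hG.1 hH.1 hGi hHi) ?_⟩
  · intro e he
    simp only [sideEdges, mem_filter, mem_univ, true_and] at he
    exact he.2
  intro U _ m W m0 m1 W0 hrow hcol
  have hB : Bir m W := ⟨m0, m1, W0, hrow, hcol⟩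
  -- the density of `H`
  have h1 := one_le_of_gsid hH hB
  rw [hF V U m W H s K τ m1] at h1
  rw [hS VG V U m W G t H s K τ m1 hG.1]
  -- the weights
  have hU : Nonempty U := by
    by_contra hU
    rw [not_nonempty_iff] at hU
    have := m1 true
    simp at this
  obtain ⟨u₀⟩ := hU
  have hw1 : ∑ r : V → U, pm s m r * aw H s W K r = 1 := by
    rw [← hT V U m W H s ∅ K (fun _ => u₀) hB hH.1 (fun v hv => absurd hv (notMem_empty v)) hK]
    exact sum_congr rfl fun x _ => by rw [bw_empty]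
  set D : (V → U) → (V → U) → ℝ := dw H s W (pt τ K false) (pt τ K true) with hD
  set M : (V → U) → ℝ := fun r => ∑ x : V → U, pm s m x * bw H s W K (pt τ K false) r x *
    ∑ y : V → U, pm s m y * bw H s W K (pt τ K true) r y * D x y with hM
  set e := (sideEdges G t).card with he
  have hw0 : ∀ r : V → U, 0 ≤ pm s m r * aw H s W K r := fun r =>
    mul_nonneg (pm_nonneg m0 r) (aw_nonneg W0 K r)
  have hM0 : ∀ r, 0 ≤ M r := fun r => sum_nonneg fun x _ =>
    mul_nonneg (mul_nonneg (pm_nonneg m0 x) (bw_nonneg W0 _ _ _ _)) (sum_nonneg fun y _ =>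
      mul_nonneg (mul_nonneg (pm_nonneg m0 y) (bw_nonneg W0 _ _ _ _)) (dw_nonneg W0 _ _ _ _))
  have hJ := Real.pow_arith_mean_le_arith_mean_pow univ (fun r : V → U => pm s m r * aw H s W K r)
    M (fun r _ => hw0 r) hw1 (fun r _ => hM0 r) e
  have h2 : 1 ≤ (∑ r : V → U, pm s m r * aw H s W K r * M r) ^ e := one_le_pow₀ h1
  refine (h2.trans hJ).trans (sum_le_sum fun r _ => ?_)
  by_cases hr : pm s m r = 0
  · rw [hr]
    simp
  refine mul_le_mul_of_nonneg_left ?_ (hw0 r)
  -- KSid of `G`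
  have hb1 : ∀ b, ∑ x : V → U, pm s m x * bw H s W K (pt τ K b) r x = 1 := fun b =>
    hT V U m W H s K (pt τ K b) r hB hH.1 (fun v _ => pm_ne hr v) (hA b)
  have h3 := hG.2.2 (V → U) (fun b x => pm s m x * bw H s W K (pt τ K b) r x) D
    (fun b x => mul_nonneg (pm_nonneg m0 x) (bw_nonneg W0 _ _ _ _)) hb1
    (fun x y => dw_nonneg W0 _ _ _ _)
  refine le_trans (le_of_eq ?_) h3
  rw [hM, he]
  congr 1
  refine sum_congr rfl fun x _ => ?_
  rw [mul_sum]
  exact sum_congr rfl fun y _ => by ring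

end Vale.Agent.P050.H869.Clo
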