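import Mathlib.Combinatorics.SimpleGraph.Basic

/-!
Statement-level definitions: points and lines of a grid.
-/

namespace Vale.Agent.P050.H869.Clo

/-- the incidence graph of the points `α` and the blocks `β`; `R x b`: the point `x` lies on the
block `b` -/
def inc {α β : Type} (R : α → β → Prop) : SimpleGraph (α ⊕ β) where
  Adj
    | Sum.inl x, Sum.inr b => R x b
    | Sum.inr b, Sum.inl x => R x b
    | _, _ => False
  symm := ⟨by
    rintro (x | b) (y | c) h
    · exact h
    · exact h
    · exact h
    · exact h⟩
  loopless := ⟨by
    rintro (x | b) h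
    · exact h
    · exact h⟩

/-- the lines of the grid `[n]^d` parallel to the axes: the direction `i`, and the coordinates
other than `i` -/
abbrev Line (d n : ℕ) : Type := Σ i : Fin d, ({j : Fin d // j ≠ i} → Fin n)

/-- the point `x` lies on the line `l` -/
def OnLine {d n : ℕ} (x : Fin d → Fin n) (l : Line d n) : Prop := ∀ j, x j.1 = l.2 j

end Vale.Agent.P050.H869.Clo
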