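import Vale.Agent.P050.H346.Tree
import Vale.Agent.P050.H687.Prod
import Vale.Agent.P050.H869.Clo.NetDefs
import Mathlib.Combinatorics.SimpleGraph.Prod

/-!
[NET] incidence graphs and their products.
-/

set_option linter.unusedSectionVars false

namespace Vale.Agent.P050.H869.Clo

open Finset Vale.Agent.P050.Lev

/-- relabelling of the vertices -/
theorem ksid_transport {V V' : Type} [Fintype V] [DecidableEq V] [Fintype V'] [DecidableEq V']
    (φ : V ≃ V') {E : Finset (V × V)} {s : V → Bool} (h : KSid E s)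
    {E' : Finset (V' × V')} {s' : V' → Bool} (hE : ∀ a b, (φ a, φ b) ∈ E' ↔ (a, b) ∈ E)
    (hs : ∀ a, s' (φ a) = s a) : KSid E' s' := by
  have hEE : E' = E.image (Prod.map φ φ) := by
    ext ⟨u, v⟩
    obtain ⟨a, rfl⟩ := φ.surjective u
    obtain ⟨b, rfl⟩ := φ.surjective v
    rw [hE, Finset.mem_image]
    constructor
    · exact fun h => ⟨(a, b), h, rfl⟩
    · rintro ⟨⟨c, d⟩, h, h'⟩
      simp only [Prod.map_apply, Prod.mk.injEq, EmbeddingLike.apply_eq_iff_eq] at h'
      rw [← h'.1, ← h'.2]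
      exact h
  refine ⟨?_, fun U _ m W m0 m1 hW => ?_⟩
  · rintro ⟨u, v⟩ he
    obtain ⟨a, rfl⟩ := φ.surjective u
    obtain ⟨b, rfl⟩ := φ.surjective v
    rw [hE] at he
    simp only [hs]
    exact h.1 _ he
  have key := h.2 U m W m0 m1 hW
  have hinj : Function.Injective (Prod.map φ φ) := φ.injective.prodMap φ.injective
  have hc : E'.card = E.card := by rw [hEE, Finset.card_image_of_injective _ hinj]
  rw [hc]
  refine key.trans (le_of_eq ?_)
  rw [← Equiv.sum_comp (φ.arrowCongr (Equiv.refl U))]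
  refine Finset.sum_congr rfl fun z _ => ?_
  have h1 : ∀ a, (φ.arrowCongr (Equiv.refl U)) z (φ a) = z a := by
    intro a
    simp [Equiv.arrowCongr]
  congr 1
  · rw [← Equiv.prod_comp φ]
    exact Finset.prod_congr rfl fun a _ => by rw [hs, h1]
  · rw [hEE, Finset.prod_image fun x _ y _ hxy => hinj hxy]
    refine Finset.prod_congr rfl fun e _ => ?_
    simp only [Prod.map_fst, Prod.map_snd, h1]

/-- isomorphic 2-coloured graphs -/
theorem gsid_iso {V V' : Type} {_ : Fintype V} {_ : DecidableEq V} {_ : Fintype V'}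
    {_ : DecidableEq V'} {F : SimpleGraph V} {F' : SimpleGraph V'} {s : V → Bool} {s' : V' → Bool} (φ : V ≃ V')
    (hA : ∀ a b, F'.Adj (φ a) (φ b) ↔ F.Adj a b) (hs : ∀ a, s' (φ a) = s a) (h : GSid F s) :
    GSid F' s' := by
  refine ⟨fun u v huv => ?_, ksid_transport φ h.2 (fun a b => ?_) hs⟩
  · obtain ⟨a, rfl⟩ := φ.surjective u
    obtain ⟨b, rfl⟩ := φ.surjective v
    rw [hs, hs]
    exact h.1 a b ((hA a b).1 huv)
  · simp only [sideEdges, mem_filter, mem_univ, true_and, hA, hs]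

/-- the product: the points are the pairs of points; the blocks are `{(x, y) : x ∈ b}` for a block
`b` of the first and a point `y` of the second, and `{(x, y) : y ∈ c}` for a point `x` of the first
and a block `c` of the second -/
def prodRel {α β α' β' : Type} (R : α → β → Prop) (S : α' → β' → Prop) :
    α × α' → (β × α') ⊕ (α × β') → Prop
  | p, Sum.inl q => R p.1 q.1 ∧ p.2 = q.2
  | p, Sum.inr q => p.1 = q.1 ∧ S p.2 q.2

section congr

variable {α β α' β' : Type}

theorem inc_congr {_ : Fintype (α ⊕ β)} {_ : DecidableEq (α ⊕ β)} {_ : Fintype (α' ⊕ β')}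
    {_ : DecidableEq (α' ⊕ β')} {R : α → β → Prop} {R' : α' → β' → Prop} (φ : α ≃ α') (ψ : β ≃ β')
    (h : ∀ x b, R' (φ x) (ψ b) ↔ R x b) (hR : GSid (inc R) Sum.isRight) :
    GSid (inc R') Sum.isRight := by
  refine gsid_iso (Equiv.sumCongr φ ψ) ?_ ?_ hR
  · rintro (x | b) (y | c)
    · exact Iff.rfl
    · exact h _ _
    · exact h _ _
    · exact Iff.rfl
  · rintro (x | b) <;> rfl

/-- no isolated vertex -/
def Full {α β : Type} (R : α → β → Prop) : Prop := (∀ x, ∃ b, R x b) ∧ ∀ b, ∃ x, R x b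

theorem Full.iso {R : α → β → Prop} (h : Full R) : ∀ p, ∃ q, (inc R).Adj p q := by
  rintro (x | b)
  · obtain ⟨b, hb⟩ := h.1 x
    exact ⟨Sum.inr b, hb⟩
  · obtain ⟨x, hx⟩ := h.2 b
    exact ⟨Sum.inl x, hx⟩

theorem Full.prod {R : α → β → Prop} {S : α' → β' → Prop} (hR : Full R) (hS : Full S) :
    Full (prodRel R S) := by
  refine ⟨?_, ?_⟩
  · rintro ⟨x, y⟩
    obtain ⟨b, hb⟩ := hR.1 x
    exact ⟨Sum.inl (b, y), hb, rfl⟩
  · rintro (⟨b, y⟩ | ⟨x, c⟩)
    · obtain ⟨x, hx⟩ := hR.2 b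
      exact ⟨(x, y), hx, rfl⟩
    · obtain ⟨y, hy⟩ := hS.2 c
      exact ⟨(x, y), rfl, hy⟩

end congr

/-- the vertices of the three quarters of the product -/
def threeEquiv (α β α' β' : Type) :
    H687.Q3 (Sum.isRight : α ⊕ β → Bool) (Sum.isRight : α' ⊕ β' → Bool) ≃
      (α × α') ⊕ ((β × α') ⊕ (α × β')) where
  toFun
    | ⟨(Sum.inl x, Sum.inl y), _⟩ => Sum.inl (x, y)
    | ⟨(Sum.inr b, Sum.inl y), _⟩ => Sum.inr (Sum.inl (b, y))
    | ⟨(Sum.inl x, Sum.inr c), _⟩ => Sum.inr (Sum.inr (x, c))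
    | ⟨(Sum.inr _, Sum.inr _), h⟩ => absurd h (by simp)
  invFun
    | Sum.inl (x, y) => ⟨(Sum.inl x, Sum.inl y), by simp⟩
    | Sum.inr (Sum.inl (b, y)) => ⟨(Sum.inr b, Sum.inl y), by simp⟩
    | Sum.inr (Sum.inr (x, c)) => ⟨(Sum.inl x, Sum.inr c), by simp⟩
  left_inv := by
    rintro ⟨⟨x | b, y | c⟩, h⟩
    · rfl
    · rfl
    · rfl
    · exact absurd h (by simp)
  right_inv := by
    rintro (⟨x, y⟩ | ⟨b, y⟩ | ⟨x, c⟩) <;> rfl

section prod

variable {α β α' β' : Type} {_ : Fintype (α ⊕ β)} {_ : DecidableEq (α ⊕ β)}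
  {_ : Fintype (α' ⊕ β')} {_ : DecidableEq (α' ⊕ β')}
  [Fintype ((α × α') ⊕ ((β × α') ⊕ (α × β')))]
  [DecidableEq ((α × α') ⊕ ((β × α') ⊕ (α × β')))]

/-- **Products of incidence graphs.** -/
theorem inc_prod {R : α → β → Prop} {S : α' → β' → Prop} (hR : Full R)
    (hS : Full S) (h1 : GSid (inc R) Sum.isRight) (h2 : GSid (inc S) Sum.isRight) :
    GSid (inc (prodRel R S)) Sum.isRight := by
  have h := H687.prod3_gsid h1 h2 hR.iso hS.iso
  refine gsid_iso (threeEquiv α β α' β') ?_ ?_ h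
  · rintro ⟨⟨x | b, y | c⟩, h⟩ ⟨⟨x' | b', y' | c'⟩, h'⟩
    all_goals try (exfalso; simp at h; done)
    all_goals try (exfalso; simp at h'; done)
    all_goals simp [threeEquiv, inc, prodRel, H687.prod3, SimpleGraph.boxProd_adj]
    all_goals tauto
  · rintro ⟨⟨x | b, y | c⟩, h⟩
    all_goals try (exfalso; simp at h; done)
    all_goals rfl

end prod

/-! ### the points and lines of a grid -/

theorem full_grid {d n : ℕ} (hd : 1 ≤ d) (hn : 1 ≤ n) : Full (OnLine (d := d) (n := n)) := by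
  refine ⟨fun x => ⟨⟨⟨0, hd⟩, fun j => x j.1⟩, fun j => rfl⟩, ?_⟩
  rintro ⟨i, y⟩
  refine ⟨fun j => if h : j = i then ⟨0, hn⟩ else y ⟨j, h⟩, ?_⟩
  rintro ⟨j, hj⟩
  simp only [hj, dite_false]

/-- the lines of `[n]^(d+1)` -/
def gridLine {d n : ℕ} : (Line d n × Fin n) ⊕ ((Fin d → Fin n) × Unit) → Line (d + 1) n
  | Sum.inl (l, a) => ⟨l.1.succ, fun j => if h : j.1 = 0 then a else
      l.2 ⟨j.1.pred h, fun h' => j.2 ((Fin.succ_pred j.1 h).symm.trans (congrArg Fin.succ h'))⟩⟩
  | Sum.inr (x, _) => ⟨0, fun j => x (j.1.pred j.2)⟩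

theorem gridLine_bij {d n : ℕ} : Function.Bijective (gridLine (d := d) (n := n)) := by
  constructor
  · rintro (⟨⟨i, y⟩, a⟩ | ⟨x, u⟩) (⟨⟨i', y'⟩, a'⟩ | ⟨x', u'⟩) h
    · simp only [gridLine, Sigma.mk.injEq, Fin.succ_inj] at h
      obtain ⟨rfl, h⟩ := h
      have h := eq_of_heq h
      have ha : a = a' := by
        have := congrFun h ⟨0, (Fin.succ_ne_zero i).symm⟩
        simpa using this
      have hy : y = y' := by
        funext ⟨j, hj⟩
        have := congrFun h ⟨j.succ, fun h => hj (Fin.succ_injective _ h)⟩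
        simpa [Fin.succ_ne_zero] using this
      rw [ha, hy]
    · simp only [gridLine, Sigma.mk.injEq] at h
      exact absurd h.1 (Fin.succ_ne_zero i)
    · simp only [gridLine, Sigma.mk.injEq] at h
      exact absurd h.1.symm (Fin.succ_ne_zero i')
    · simp only [gridLine, Sigma.mk.injEq, true_and] at h
      have h := eq_of_heq h
      have hx : x = x' := by
        funext j
        have := congrFun h ⟨j.succ, Fin.succ_ne_zero j⟩
        simpa using this
      rw [hx]
  · rintro ⟨i, y⟩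
    refine Fin.cases (motive := fun i => ∀ y : ({j : Fin (d + 1) // j ≠ i} → Fin n),
      ∃ a, gridLine a = ⟨i, y⟩) ?_ ?_ i y
    · intro y
      refine ⟨Sum.inr (fun k => y ⟨k.succ, Fin.succ_ne_zero k⟩, ()), ?_⟩
      simp only [gridLine, Fin.succ_pred]
    · intro i y
      refine ⟨Sum.inl (⟨i, fun k => y ⟨k.1.succ, fun h => k.2 (Fin.succ_injective _ h)⟩⟩,
        y ⟨0, (Fin.succ_ne_zero i).symm⟩), ?_⟩
      simp only [gridLine, Sigma.mk.injEq, heq_eq_eq, true_and]
      funext ⟨j, hj⟩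
      by_cases h : j = 0
      · subst h
        simp
      · simp [h]

theorem onLine_step {d n : ℕ} (p : (Fin d → Fin n) × Fin n)
    (b : (Line d n × Fin n) ⊕ ((Fin d → Fin n) × Unit)) :
    OnLine (Fin.cons p.2 p.1 : Fin (d + 1) → Fin n) (gridLine b) ↔
      prodRel OnLine (fun (_ : Fin n) (_ : Unit) => True) p b := by
  obtain ⟨x, a⟩ := p
  rcases b with ⟨⟨i, y⟩, b⟩ | ⟨x', u⟩
  · simp only [OnLine, gridLine, prodRel]
    constructor
    · intro h
      refine ⟨?_, ?_⟩
      · rintro ⟨j, hj⟩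
        have := h ⟨j.succ, fun h => hj (Fin.succ_injective _ h)⟩
        simpa [Fin.succ_ne_zero] using this
      · have := h ⟨0, (Fin.succ_ne_zero i).symm⟩
        simpa using this
    · rintro ⟨h, rfl⟩ ⟨j, hj⟩
      by_cases h0 : j = 0
      · subst h0
        simp
      · obtain ⟨k, rfl⟩ := Fin.exists_succ_eq.2 h0
        simp only [Fin.cons_succ, Fin.succ_ne_zero, dite_false, Fin.pred_succ]
        exact h ⟨k, fun h => hj (by rw [h])⟩
  · simp only [OnLine, gridLine, prodRel, and_true]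
    constructor
    · intro h
      funext j
      have := h ⟨j.succ, Fin.succ_ne_zero j⟩
      simpa using this
    · rintro rfl ⟨j, hj⟩
      obtain ⟨k, rfl⟩ := Fin.exists_succ_eq.2 hj
      simp

/-- the line of `[n]^1` -/
def lineOne (n : ℕ) : Unit → Line 1 n := fun _ =>
  ⟨0, fun j => absurd (Subsingleton.elim j.1 0) j.2⟩

theorem lineOne_bij (n : ℕ) : Function.Bijective (lineOne n) := by
  refine ⟨fun _ _ _ => rfl, ?_⟩
  rintro ⟨i, y⟩
  obtain rfl : i = 0 := Subsingleton.elim _ _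
  refine ⟨(), ?_⟩
  simp only [lineOne, Sigma.mk.injEq, heq_eq_eq, true_and]
  funext j
  exact absurd (Subsingleton.elim j.1 0) j.2

theorem star_gsid {n : ℕ} (hn : 1 ≤ n) :
    GSid (inc fun (_ : Fin n) (_ : Unit) => True) Sum.isRight := by
  have hF : Full fun (_ : Fin n) (_ : Unit) => True :=
    ⟨fun _ => ⟨(), trivial⟩, fun _ => ⟨⟨0, hn⟩, trivial⟩⟩
  refine H346.forest_gsid ?_ ?_ hF.iso
  · rintro (x | b) (y | c) h
    · exact h.elim
    · simp
    · simp
    · exact h.elim
  · have key : ∀ A : Finset (Fin n), H177.Thin (inc fun (_ : Fin n) (_ : Unit) => True) ∅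
        (insert (Sum.inr ()) (A.map Function.Embedding.inl)) := by
      intro A
      induction A using Finset.induction_on with
      | empty =>
        rw [map_empty]
        refine H177.Thin.insert _ H177.Thin.empty (notMem_empty _) (notMem_empty _) ?_
        intro x hx
        simp at hx
      | insert a A ha ih =>
        rw [map_insert, Finset.insert_comm]
        refine H177.Thin.insert _ ih (notMem_empty _) ?_ ?_
        · simp [ha]
        · rintro (x | b) - (y | c) - h h'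
          · exact h.elim
          · exact h.elim
          · exact h'.elim
          · rfl
    have h := key univ
    convert h using 1
    ext (x | b) <;> simp

/-- the points of `[n]^(d+1)` -/
def pointEquiv (d n : ℕ) : (Fin d → Fin n) × Fin n ≃ (Fin (d + 1) → Fin n) where
  toFun p := Fin.cons p.2 p.1
  invFun x := (fun j => x j.succ, x 0)
  left_inv p := rfl
  right_inv x := by
    funext j
    refine Fin.cases rfl (fun j => rfl) j

theorem grid_step {d n : ℕ} (hd : 1 ≤ d) (hn : 1 ≤ n)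
    (ih : GSid (inc (OnLine (d := d) (n := n))) Sum.isRight) :
    GSid (inc (OnLine (d := d + 1) (n := n))) Sum.isRight := by
  have hF : Full fun (_ : Fin n) (_ : Unit) => True :=
    ⟨fun _ => ⟨(), trivial⟩, fun _ => ⟨⟨0, hn⟩, trivial⟩⟩
  have h := inc_prod (full_grid hd hn) hF ih (star_gsid hn)
  exact gsid_iso (Equiv.sumCongr (pointEquiv d n) (Equiv.ofBijective _ (gridLine_bij (d := d) (n := n))))
    (by
      rintro (x | b) (y | c)
      · exact Iff.rfl
      · exact onLine_step x c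
      · exact onLine_step y b
      · exact Iff.rfl) (by rintro (x | b) <;> rfl) h

/-- **Points and lines of a grid.** -/
theorem grid_gsid {n : ℕ} (hn : 1 ≤ n) (d : ℕ) :
    GSid (inc (OnLine (d := d + 1) (n := n))) Sum.isRight := by
  induction d with
  | zero =>
    refine inc_congr (Equiv.funUnique (Fin 1) (Fin n)).symm (Equiv.ofBijective _ (lineOne_bij n))
      ?_ (star_gsid hn)
    intro x b
    simp only [iff_true]
    rintro ⟨j, hj⟩
    exact absurd (Fin.ext (by omega)) hj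
  | succ d ih => exact grid_step (Nat.le_add_left 1 d) hn ih

end Vale.Agent.P050.H869.Clo
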